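import Vale.Agent.P210X.Sta

/-!
# P210O: the actual drift with the Hardy weights
-/

open Filter Topology Set
open scoped ContDiff
open Vale.Agent.P366D (Rf)
open Vale.Agent.P366M Vale.Agent.P366M.Gr Vale.Agent.P366M.Y.C
open Vale.Agent.P210G Vale.Agent.P210H Vale.Agent.P210X

noncomputable section

namespace Vale.Agent.P210O

/-- **ACT** -/
theorem act : ACT := by
  intro k Y I _ 𝒰 g f h u c e O K Λ P F hP
  have hg := F.met
  obtain ⟨C, hC⟩ := F.cpt.exists_bound_of_continuousOn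
    (hg.cont_ip F.smf.one F.smf.one).continuousOn
  refine ⟨|Λ| + |C| + 1, fun B hB S C₁ C₂ Γ η θ₁ θ₂ T₁ T₂ h₁ h₂ W₁ w₁ q₁ W₂ w₂ q₂ η0 H₁ H₂ S₀ => ?_⟩
  filter_upwards [F.bd, F.cf S₀, F.pos S₀ η0] with i a b q x hx
  have xK := b x hx
  have xO := F.sub xK
  have su := F.smu i
  have hγ := met_g hg su
  have aΛ := abs_nonneg Λ
  have aC := abs_nonneg C
  have gf : gn g f x ≤ |C| + 1 := by
    have h1 := hg.gn_sq f x
    have h2 : ip g f f x ≤ |C| := (le_abs_self _).trans ((hC x xK).trans (le_abs_self _))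
    nlinarith [gn_nonneg g f x]
  have d1 : |dv g (nv g (u i)) x| ≤ B := by
    have h1 := a x xO
    have h2 := abs_dn_le hg (u i) f x
    rw [hw] at h1
    have h3 := le_abs_self Λ
    rw [abs_le] at h1 h2 ⊢
    constructor <;> linarith [h1.1, h1.2, h2.1, h2.2]
  have cf : CC ∞ (fun j y => -pd j f y : Fin (k + 1) → Y → ℝ) := by
    simpa [df] using (cc_df F.smf).smul (cd_const (c := (-1 : ℝ)))
  have hv2 : iv (gb g 1 (u i)) (fun j y => -pd j f y) (fun j y => -pd j f y) x ≤ B ^ 2 := by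
    rw [iv_smul (s := -1) (t := -1) (a := df f) (b := df f) (by simp [df]) (by simp [df]), iv_df]
    have h1 := ip_g_le hg (u i) f x
    have h2 := hg.gn_sq f x
    nlinarith [gn_nonneg g f x]
  have R := Rv_hardy (a := df (lw g (u i))) (c₁ := 1 / 2) (c₂ := 1 / 4) hγ (by linarith) hv2
    (dV_sh hγ (cc_vg hg cf su) x) (H₁.smW.c2 x) (H₂.smW.c2 x) (H₁.W1 x) (H₂.W1 x) (by norm_num)
    (by norm_num) (H₁.gph _ su x d1).sup (H₂.gph _ su x d1).sup
  have G := gid hg cf su x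
  have e1 : hv g (fun j y => -pd j f y) (u i) = hw g f (u i) := funext (hv_neg_df hg f (u i))
  rw [e1, Rv_neg_df (F.smf.c2 x)] at G
  have e2 : (fun j y => vg g (fun j y => -pd j f y) (u i) j y - pd j (lg W₁ W₂) y) =
      fun j y => -pd j f y + df (lw g (u i)) j y + -1 *
        pd j (fun z => 1 / 2 * Real.log (W₁ z) + 1 / 4 * Real.log (W₂ z)) y := by
    funext j y; simp only [vg, df]; unfold lg; ring
  rw [e2]
  refine le_trans ?_ R
  change _ ≤ Rv _ (vg g (fun j y => -pd j f y) (u i)) x - _ - _ - _ + _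
  rw [G, iv_df]
  have w1 := H₁.W1 x
  have w2 := H₂.W1 x
  have a1 : (η - Γ * (W₁ x - 1)) / W₁ x ≤ η - Γ * ((W₁ x - 1) / W₁ x) := by
    rw [sub_div, mul_div_assoc]; linarith [div_le_self η0.le w1]
  have a2' : (η - 0 * (W₂ x - 1)) / W₂ x ≤ η := by
    rw [zero_mul, sub_zero]; exact div_le_self η0.le w2
  linarith [hP x xO, q x hx, a2_nonneg hg su x, sq_nonneg (gn (gb g 1 (u i)) W₁ x / W₁ x)]

end Vale.Agent.P210O
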