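import Vale.Agent.P210R.Defs
import Vale.Agent.P210F.Sta

/-!
# P210O: the outer part of stage 1; statements (helper84)

`P210R.ROUND → POT → PA n`, `FLAT1 n → WIDE n`, `PA n → WIDE n → FLAT n → CORE n`,
`CORE n → COREM n`, `COREM n → ST1 n`.
-/

open Filter Topology Set
open scoped ContDiff
open Vale.Agent.P366M Vale.Agent.P210G Vale.Agent.P210U

noncomputable section

namespace Vale.Agent.P210O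

/-- **POT**: potentials of arbitrary height on an interval of length `r` -/
def POT : Prop := ∀ θ > (0 : ℝ), ∃ C > (0 : ℝ), ∀ r > (0 : ℝ), ∀ h : ℝ, ∃ (V : ℝ → ℝ) (H : ℝ),
  ContDiff ℝ ∞ V ∧ h ≤ H ∧ (∀ t, 0 ≤ V t) ∧ (∀ t ≤ 0, V t = 0) ∧ (∀ t, r ≤ t → V t = H) ∧
    ∀ t, deriv V t ^ 2 ≤ V t * (θ * V t ^ 2 + C / r ^ 4)

/-- **PA**: property A at one scale; the label `j₀` is alone on `0 < ϱ` -/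
def PA (n : ℕ) : Prop := ∀ ε > (0 : ℝ), ∃ L > (0 : ℝ), ∀ (X : Type) [Mf0 n X] [CompactSpace X]
  (g : Fld n X) (v : Fin n → X → ℝ) (m : ℕ) (j₀ : Fin m) (s : Fin m → X → ℝ) (ϱ : X → ℝ),
  Met g → CC ∞ v → (∀ j, Smooth (s j)) → (∀ j x, gn g (s j) x ≤ 2) → Smooth ϱ →
  (∀ x, ∃ j, s j x ≤ 0) → (∀ x, 0 < ϱ x → s j₀ x ≤ 0 ∧ ∀ j ≠ j₀, L ≤ s j x) →
  ∃ Λ : ℝ, ∀ K : ℝ, ∃ (g' : Fld n X) (v' : Fin n → X → ℝ) (b : Fin m → X → ℝ) (φ : X → ℝ),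
    Met g' ∧ CC ∞ v' ∧ Up g g' ∧ (∀ j, Smooth (b j)) ∧ ∀ x,
      (4 ≤ ϱ x → g' x = g x ∧ ∀ i, v' i x = v i x) ∧ (∀ j, L ≤ s j x → b j x = 0) ∧
      1 - ε ≤ ∑ j, b j x ^ 2 ∧ ∑ j, b j x ^ 2 ≤ 1 ∧ φ x ∈ Icc (0 : ℝ) 1 ∧
      ∑ j, ip g' (b j) (b j) x ≤ ε ^ 2 + φ x * Λ ∧ Rv g v x - ε + K * φ x ≤ Rv g' v' x

/-- **WIDE**: a collar of arbitrary length inside `0 < om < D` -/
def WIDE (n : ℕ) : Prop := ∀ ε > (0 : ℝ), ∃ D > (0 : ℝ), ∀ t > (0 : ℝ), ∀ (X : Type) [Mf0 n X]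
  [CompactSpace X] (g : Fld n X) (v : Fin n → X → ℝ) (om : X → ℝ), Met g → CC ∞ v → Smooth om →
  (∀ x, gn g om x ≤ 2) → ∃ (g' : Fld n X) (v' : Fin n → X → ℝ) (ϖ : X → ℝ),
    Met g' ∧ CC ∞ v' ∧ Up g g' ∧ Smooth ϖ ∧ ∀ x,
      (D ≤ om x → g' x = g x ∧ (∀ i, v' i x = v i x) ∧ 1 ≤ ϖ x) ∧ (om x ≤ 0 → ϖ x ≤ 0) ∧
      gn g' ϖ x ≤ t ∧ Rv g v x - ε ≤ Rv g' v' x

/-- the output of stage 1 for the distance functions `ρ i` -/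
structure Out {n : ℕ} {X : Type} [Mf0 n X] {I : Type} [Fintype I] (g : Fld n X)
    (v : Fin n → X → ℝ) (ρ : I → X → ℝ) (η D e : ℝ) (g' : Fld n X) (v' : Fin n → X → ℝ)
    (b : I → X → ℝ) : Prop where
  met : Met g'
  cc : CC ∞ v'
  up : Up g g'
  sm : ∀ i, Smooth (b i)
  off : ∀ x, (∀ i, D ≤ ρ i x) → g' x = g x ∧ (∀ i, v' i x = v i x) ∧ ∀ i, b i x = 0
  cur : ∀ x, Rv g v x - η ≤ Rv g' v' x
  en : ∀ x, ∑ i, ip g' (b i) (b i) x ≤ e ^ 2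
  le : ∀ x, ∑ i, b i x ^ 2 ≤ 2
  far : ∀ x (T : Finset I), (∀ i ∈ T, D ≤ ρ i x) → ∑ i ∈ T, b i x ^ 2 ≤ 1 / 4
  near : ∀ x, (∃ i, ρ i x ≤ 2) → 3 / 4 ≤ ∑ i, b i x ^ 2

/-- **CORE**: stage 1 on a closed manifold -/
def CORE (n : ℕ) : Prop := ∀ η > (0 : ℝ), ∃ D > (0 : ℝ), ∀ (X : Type) [Mf0 n X] [CompactSpace X]
  (g : Fld n X) (v : Fin n → X → ℝ) (I : Type) [Fintype I] (ρ : I → X → ℝ), Met g → CC ∞ v →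
  (∀ i, Smooth (ρ i)) → (∀ i x, gn g (ρ i) x ≤ 2) → ∀ e > (0 : ℝ),
  ∃ g' v' b, Out g v ρ η D e g' v' b

/-- **COREM**: the same on an arbitrary manifold, for proper functions `ρ i` -/
def COREM (n : ℕ) : Prop := ∀ η > (0 : ℝ), ∃ D > (0 : ℝ), ∀ (X : Type) [Mf0 n X]
  (g : Fld n X) (v : Fin n → X → ℝ) (I : Type) [Fintype I] (ρ : I → X → ℝ), Met g → CC ∞ v →
  (∀ i, Smooth (ρ i)) → (∀ i x, gn g (ρ i) x ≤ 2) → (∀ i c, IsCompact {x | ρ i x ≤ c}) →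
  ∀ e > (0 : ℝ), ∃ g' v' b, Out g v ρ η D e g' v' b

end Vale.Agent.P210O
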